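import Vale.Agent.P142.Defs
import Vale.Agent.P142.Main

namespace Vale.Agent.Results.P142.NineEighths

open Vale.Agent.P142 Metric Set Filter Topology MeasureTheory

theorem result :
    spectrumS (-2) ≤ ((9 / 8 : ℝ) : EReal) ∧
    ∀ f : ℂ → ℂ, DifferentiableOn ℂ f (ball 0 1) → InjOn f (ball 0 1) →
      ∀ t : ℝ, -16 / 9 < t → t ≤ 0 → IntegrableOn (fun z => ‖deriv f z‖ ^ t) (ball 0 1) := by
  refine ⟨iSup_le fun f => ?_, fun f hd hi t => integrable_deriv hd hi⟩
  obtain ⟨C, C1, h⟩ := means_bound' f.2.1 f.2.2.1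
  have t1 : Tendsto (fun r : ℝ => Real.log (1 / (1 - r))) (𝓝[<] 1) atTop := by
    simp only [one_div]
    refine Real.tendsto_log_atTop.comp (tendsto_inv_nhdsGT_zero.comp
      (tendsto_nhdsWithin_iff.mpr ⟨?_, ?_⟩))
    · exact (Continuous.tendsto' (by fun_prop) 1 0 (by simp)).mono_left nhdsWithin_le_nhds
    · filter_upwards [self_mem_nhdsWithin] with r hr using sub_pos.mpr (mem_Iio.mp hr)
  have t2 := (tendsto_const_nhds (x := Real.log C).div_atTop t1).add_const (9 / 8 : ℝ)
  rw [zero_add] at t2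
  refine le_of_le_of_eq (limsup_le_limsup ?_) ((continuous_coe_real_ereal.tendsto _).comp t2).limsup_eq
  filter_upwards [Ioo_mem_nhdsLT zero_lt_one, t1.eventually_gt_atTop 0] with r hr hL
  have p : 0 < 1 - r := sub_pos.mpr hr.2
  have q : 1 ≤ (1 - r)⁻¹ := (one_le_inv₀ p).mpr (by linarith [hr.1])
  have i0 : 0 ≤ intMean f.1 (-2) r := mul_nonneg (by positivity)
    (intervalIntegral.integral_nonneg (by linarith [Real.pi_pos]) fun _ _ => by positivity)
  refine EReal.coe_le_coe_iff.mpr ?_
  beta_reduce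
  rw [div_add' _ _ _ hL.ne', div_le_div_iff_of_pos_right hL, one_div,
    ← Real.log_rpow (by positivity), ← Real.log_mul (by positivity) (by positivity)]
  rcases i0.eq_or_lt with e | e
  · rw [← e, Real.log_zero]
    exact Real.log_nonneg (one_le_mul_of_one_le_of_one_le C1 (Real.one_le_rpow q (by norm_num)))
  · exact Real.log_le_log e (h r hr)

end Vale.Agent.Results.P142.NineEighths
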